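import Vale.Agent.P078.MKS.OpDefs

/-!
Semifinite von Neumann algebras and the statement that in them the traces on corners of a MASA
fill up the part of the normal central functionals.
-/

namespace Vale.Agent.P078.Semifinite

open MKS Singular

variable {H : Type} [NormedAddCommGroup H] [InnerProductSpace ℂ H] [CompleteSpace H]

/-- The projections of `M` whose corner has a faithful normal finite trace tend strongly to the
identity (`M` is semifinite). -/
def IsSemifinite (M : VonNeumannAlgebra H) : Prop :=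
  ∀ (F : Finset H) (δ : ℝ), 0 < δ → ∃ (g : H →L[ℂ] H) (τ : (H →L[ℂ] H) →ₗ[ℂ] ℂ),
    g ∈ M ∧ IsStarProjection g ∧ IsTrace M g τ ∧ ∀ ξ ∈ F, ‖(1 - g) ξ‖ < δ

/-- In a semifinite algebra, the projections of a MASA with a trace on their corner fill every
projection below which normal central functionals separate. -/
def TracesFillStatement : Prop :=
  ∀ (H : Type) [NormedAddCommGroup H] [InnerProductSpace ℂ H] [CompleteSpace H]
    (M A : VonNeumannAlgebra H), IsMASA M A → IsSemifinite M → ∀ p ∈ A, IsStarProjection p →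
    (∀ e ∈ A, IsStarProjection e → e * p = e → e ≠ 0 → ∃ f, IsNormalCentral M A f ∧ f e ≠ 0) →
    ∀ (F : Finset H) (δ : ℝ), 0 < δ → ∃ (e : H →L[ℂ] H) (τ : (H →L[ℂ] H) →ₗ[ℂ] ℂ),
      e ∈ A ∧ IsStarProjection e ∧ e * p = e ∧ IsTrace M e τ ∧ ∀ ξ ∈ F, ‖(p - e) ξ‖ < δ

end Vale.Agent.P078.Semifinite
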